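import Vale.Agent.P040.H251.SelInst
import Vale.Agent.P040.H105.Star

/-!
# P040, odd layer: the data of the leaves and the values `Val z R v` (helper682)

`2h+1` leaves on the spine. The reference curve passes through the leaf `w` (mass `1/2` in each
page), the other leaves have mass one in the page `pg`; there are `h` of them in each page.
For the value at the leaf `z` this leaf is cut in two halves: the inner half at `pos z`, the outer
half at a cut `t` immediately to the right of the first point `r` of the curve.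
-/

set_option autoImplicit false

namespace Vale.Agent.P040.H682

open P040H251

/-- Leaves on the spine with the pages of their masses. -/
structure OData (h : ℕ) where
  pos : Fin (2 * h + 1) → ℝ
  inj : Function.Injective pos
  w : Fin (2 * h + 1)
  pg : Fin (2 * h + 1) → Bool
  bal : ∀ b, (Finset.univ.filter fun i => i ≠ w ∧ pg i = b).card = h
  one_le : 1 ≤ h

namespace OData

variable {h : ℕ} (P : OData h)

/-- the number of leaves to the left of `x` -/
noncomputable def rk (x : ℝ) : ℕ := (Finset.univ.filter fun i => P.pos i < x).card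

theorem rk_mono : Monotone P.rk := by
  intro x y hxy
  apply Finset.card_le_card
  intro i hi
  rw [Finset.mem_filter] at hi ⊢
  exact ⟨hi.1, lt_of_lt_of_le hi.2 hxy⟩

theorem rk_le (x : ℝ) : P.rk x ≤ 2 * h + 1 := by
  refine (Finset.card_le_univ _).trans ?_
  simp

theorem rk_pos_lt (i : Fin (2 * h + 1)) : P.rk (P.pos i) < 2 * h + 1 := by
  have h1 : (Finset.univ.filter fun j => P.pos j < P.pos i) ⊂ Finset.univ := by
    rw [Finset.ssubset_univ_iff]
    intro hh
    have : i ∈ Finset.univ.filter fun j => P.pos j < P.pos i := by rw [hh]; simp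
    simp at this
  have := Finset.card_lt_card h1
  simpa [rk] using this

theorem rk_lt_iff (i : Fin (2 * h + 1)) (x : ℝ) : P.rk (P.pos i) < P.rk x ↔ P.pos i < x := by
  constructor
  · intro hh
    by_contra hc
    exact absurd (P.rk_mono (not_lt.1 hc)) (not_le.2 hh)
  · intro hh
    apply Finset.card_lt_card
    rw [Finset.ssubset_iff_of_subset]
    · exact ⟨i, by simpa using hh, by simp⟩
    · intro j hj
      rw [Finset.mem_filter] at hj ⊢
      exact ⟨hj.1, hj.2.trans hh⟩

theorem rk_congr {a b : ℝ} (hab : a ≤ b) (hn : ∀ x, P.pos x ∉ Set.Ico a b) :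
    P.rk a = P.rk b := by
  unfold rk
  congr 1
  apply Finset.filter_congr
  intro i _
  constructor
  · intro hh; exact lt_of_lt_of_le hh hab
  · intro hh
    by_contra hc
    exact hn i ⟨not_lt.1 hc, hh⟩

theorem rk_succ (i : Fin (2 * h + 1)) {a : ℝ} (hia : P.pos i < a)
    (hn : ∀ y, P.pos y ∉ Set.Ioc (P.pos i) a) : P.rk a = P.rk (P.pos i) + 1 := by
  unfold rk
  have h1 : (Finset.univ.filter fun j => P.pos j < a) =
      insert i (Finset.univ.filter fun j => P.pos j < P.pos i) := by
    ext j
    rw [Finset.mem_insert, Finset.mem_filter, Finset.mem_filter]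
    constructor
    · rintro ⟨-, hh⟩
      rcases lt_trichotomy (P.pos j) (P.pos i) with h2 | h2 | h2
      · exact Or.inr ⟨Finset.mem_univ _, h2⟩
      · exact Or.inl (P.inj h2)
      · exact absurd ⟨h2, hh.le⟩ (hn j)
    · rintro (rfl | ⟨-, hh⟩)
      · exact ⟨Finset.mem_univ _, hia⟩
      · exact ⟨Finset.mem_univ _, hh.trans hia⟩
  rw [h1, Finset.card_insert_of_notMem (by simp)]

/-- the mass of the leaf `i` in the page `b` -/
noncomputable def mu (i : Fin (2 * h + 1)) (b : Bool) : ℝ :=
  if i = P.w then 1 / 2 else if P.pg i = b then 1 else 0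

theorem mu_nonneg (i : Fin (2 * h + 1)) (b : Bool) : 0 ≤ P.mu i b := by
  unfold mu
  split_ifs <;> norm_num

theorem mu_add (i : Fin (2 * h + 1)) : P.mu i true + P.mu i false = 1 := by
  unfold mu
  by_cases h1 : i = P.w
  · rw [if_pos h1, if_pos h1]; norm_num
  · rw [if_neg h1, if_neg h1]
    cases hp : P.pg i <;> simp

/-- the mass of the inner half of the cut leaf `z` in the page `b` -/
noncomputable def nin (z : Fin (2 * h + 1)) (b : Bool) : ℝ :=
  if z = P.w then (if b then 1 / 2 else 0) else (if P.pg z = b then 1 / 2 else 0)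

theorem nin_nonneg (z : Fin (2 * h + 1)) (b : Bool) : 0 ≤ P.nin z b := by
  unfold nin
  split_ifs <;> norm_num

theorem nin_le (z : Fin (2 * h + 1)) (b : Bool) : P.nin z b ≤ P.mu z b := by
  unfold nin mu
  split_ifs <;> norm_num

theorem nin_add (z : Fin (2 * h + 1)) : P.nin z true + P.nin z false = 1 / 2 := by
  unfold nin
  by_cases h1 : z = P.w
  · rw [if_pos h1, if_pos h1]; norm_num
  · rw [if_neg h1, if_neg h1]
    cases hp : P.pg z <;> simp

/-- the mass of the page `b` on the leaves of rank `< j` -/
noncomputable def cum (b : Bool) (j : ℕ) : ℝ :=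
  ∑ i ∈ Finset.univ.filter (fun i => P.rk (P.pos i) < j), P.mu i b

theorem cum_mono (b : Bool) : Monotone (P.cum b) := by
  intro j k hjk
  apply Finset.sum_le_sum_of_subset_of_nonneg
  · intro i hi
    rw [Finset.mem_filter] at hi ⊢
    exact ⟨hi.1, lt_of_lt_of_le hi.2 hjk⟩
  · intro i _ _
    exact P.mu_nonneg i b

theorem cum_zero (b : Bool) : P.cum b 0 = 0 := by
  unfold cum
  rw [Finset.sum_eq_zero]
  intro i hi
  simp at hi

theorem cum_top (b : Bool) : P.cum b (2 * h + 1) = h + 1 / 2 := by
  unfold cum
  have e1 : Finset.univ.filter (fun i => P.rk (P.pos i) < 2 * h + 1) =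
      (Finset.univ : Finset (Fin (2 * h + 1))) := by
    rw [Finset.filter_eq_self]
    intro i _
    exact P.rk_pos_lt i
  rw [e1]
  have e2 : ∀ i, P.mu i b = (if i ≠ P.w ∧ P.pg i = b then (1 : ℝ) else 0) +
      if i = P.w then 1 / 2 else 0 := by
    intro i
    unfold mu
    by_cases h1 : i = P.w
    · simp [h1]
    · by_cases h2 : P.pg i = b
      · simp [h1, h2]
      · simp [h1, h2]
  rw [Finset.sum_congr rfl fun i _ => e2 i, Finset.sum_add_distrib, Finset.sum_ite_eq']
  rw [if_pos (Finset.mem_univ _)]
  congr 1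
  rw [← Finset.sum_filter, Finset.sum_const, P.bal b]
  simp

theorem cum_le (b : Bool) (j : ℕ) : P.cum b j ≤ h + 1 / 2 := by
  rw [← P.cum_top b]
  rcases le_total j (2 * h + 1) with h1 | h1
  · exact P.cum_mono b h1
  · apply Finset.sum_le_sum_of_subset_of_nonneg
    · intro i _
      rw [Finset.mem_filter]
      exact ⟨Finset.mem_univ _, P.rk_pos_lt i⟩
    · intro i _ _
      exact P.mu_nonneg i b

theorem cum_nonneg (b : Bool) (j : ℕ) : 0 ≤ P.cum b j :=
  Finset.sum_nonneg fun i _ => P.mu_nonneg i b

/-- one leaf -/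
theorem cum_succ (b : Bool) (z : Fin (2 * h + 1)) :
    P.cum b (P.rk (P.pos z) + 1) = P.cum b (P.rk (P.pos z)) + P.mu z b := by
  unfold cum
  have h1 : (Finset.univ.filter fun i => P.rk (P.pos i) < P.rk (P.pos z) + 1) =
      insert z (Finset.univ.filter fun i => P.rk (P.pos i) < P.rk (P.pos z)) := by
    ext i
    rw [Finset.mem_insert, Finset.mem_filter, Finset.mem_filter]
    constructor
    · rintro ⟨-, h2⟩
      rcases Nat.lt_succ_iff_lt_or_eq.1 h2 with h3 | h3
      · exact Or.inr ⟨Finset.mem_univ _, h3⟩
      · left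
        by_contra hne
        rcases lt_or_gt_of_ne (fun hh => hne (P.inj hh)) with h4 | h4
        · exact absurd h3 ((P.rk_lt_iff i _).2 h4).ne
        · exact absurd h3 ((P.rk_lt_iff z _).2 h4).ne'
    · rintro (rfl | ⟨h1, h2⟩)
      · exact ⟨Finset.mem_univ _, Nat.lt_succ_self _⟩
      · exact ⟨h1, h2.trans (Nat.lt_succ_self _)⟩
  rw [h1, Finset.sum_insert (by simp), add_comm]

/-- the masses when the leaf `z` is cut; the label `rk (pos z) + 1` is between the two halves -/
noncomputable def cc (z : Fin (2 * h + 1)) (b : Bool) (j : ℕ) : ℝ :=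
  if j ≤ P.rk (P.pos z) then P.cum b j
  else if j = P.rk (P.pos z) + 1 then P.cum b (P.rk (P.pos z)) + P.nin z b
  else P.cum b (j - 1)

theorem cc_mono (z : Fin (2 * h + 1)) (b : Bool) : Monotone (P.cc z b) := by
  apply monotone_nat_of_le_succ
  intro j
  have h1 := P.nin_nonneg z b
  have h2 := P.nin_le z b
  have h3 := P.cum_succ b z
  unfold cc
  split_ifs with a1 a2 a3 a4 a5 a6
  · exact P.cum_mono b (Nat.le_succ j)
  · have : j = P.rk (P.pos z) := by omega
    rw [this]; linarith
  · omega
  · omega
  · omega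
  · rw [show j + 1 - 1 = P.rk (P.pos z) + 1 by omega]; linarith
  · omega
  · omega
  · exact P.cum_mono b (by omega)

theorem cc_nonneg (z : Fin (2 * h + 1)) (b : Bool) (j : ℕ) : 0 ≤ P.cc z b j := by
  unfold cc
  split_ifs
  · exact P.cum_nonneg b _
  · exact add_nonneg (P.cum_nonneg b _) (P.nin_nonneg z b)
  · exact P.cum_nonneg b _

theorem cc_le (z : Fin (2 * h + 1)) (b : Bool) (j : ℕ) : P.cc z b j ≤ h + 1 / 2 := by
  unfold cc
  split_ifs
  · exact P.cum_le b _
  · have h1 := P.cum_le b (P.rk (P.pos z) + 1)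
    have h2 := P.cum_succ b z
    have h3 := P.nin_le z b
    linarith
  · exact P.cum_le b _

/-- **The data of the spine with the leaf `z` cut at `t`.** -/
noncomputable def DC (z : Fin (2 * h + 1)) (t : ℝ) : Dat ℝ where
  lab := fun x => P.rk x + if t < x then 1 else 0
  mono := by
    intro x y hxy
    have := P.rk_mono hxy
    show P.rk x + (if t < x then 1 else 0) ≤ P.rk y + (if t < y then 1 else 0)
    split_ifs with h1 h2
    · omega
    · exact absurd (lt_of_lt_of_le h1 hxy) h2
    · omega
    · omega
  C := P.cc z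
  Cmono := P.cc_mono z
  M := ((h : ℝ) + 1 / 2) / 2
  pos := by positivity
  tot := fun b i j => by
    have h1 := P.cc_le z b j
    have h2 := P.cc_nonneg z b i
    linarith

/-- the letters of the gaps; the gap through infinity is one letter -/
noncomputable def G0 : Pst.Gaps P.pos ℕ where
  gap := fun x => P.rk x % (2 * h + 1)
  lt := fun i => P.rk (P.pos i)
  rt := fun i => (P.rk (P.pos i) + 1) % (2 * h + 1)
  const := fun a b hab hn => by
    rw [P.rk_congr hab fun x hx => hn x ⟨hx.1, hx.2.le⟩]
  left := fun x a ha hn => by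
    rw [P.rk_congr ha.le hn, Nat.mod_eq_of_lt (P.rk_pos_lt x)]
  right := fun x a ha hn => by
    rw [P.rk_succ x ha hn]

/-- the loop around a leaf -/
noncomputable def T0 (z : Fin (2 * h + 1)) : FreeGroup ℕ :=
  FreeGroup.of (P.G0.lt z) * (FreeGroup.of (P.G0.rt z))⁻¹

/-- `r` and `l` are the two points next to the leaf `z`, the list is read from `r`; the second
point next to the leaf is `l` (the leaf is reached from below) or the last point is `l` (the leaf
is reached from above); `t` is immediately to the right of `r`. -/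
structure Fat (z : Fin (2 * h + 1)) (t r l : ℝ) (L : List ℝ) : Prop where
  fl : L.head? = some l ∨ L.getLast? = some l
  lz : l < P.pos z
  zr : P.pos z < r
  rt : r < t
  emp : ∀ w ∈ L, ¬ (l < w ∧ w ≤ t)
  rkl : P.rk l = P.rk (P.pos z)
  rkt : P.rk t = P.rk (P.pos z) + 1

/-- **The values.** `Val z R v`: there is a closed curve through the middle of the leaf `z` (the
inner half is cut off by the two points next to it), read from the point to the right of the leaf
`z` where it crosses upwards, with the word `R`, and the selector has the value `v` relative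
to this point. -/
def Val (z : Fin (2 * h + 1)) (R : FreeGroup ℕ) (v : ℝ) : Prop :=
  ∃ (t r l : ℝ) (L : List ℝ) (E : ℝ → ℝ), Crv (P.DC z t) true (r :: L) E ∧ P.Fat z t r l L ∧
    Pst.wd P.G0 true L = R * FreeGroup.of (P.G0.lt z) ∧
    v = selApi.val true (r :: L) E - E r

variable {P}

theorem Fat.rkr {z : Fin (2 * h + 1)} {t r l : ℝ} {L : List ℝ} (H : P.Fat z t r l L) :
    P.rk r = P.rk (P.pos z) + 1 := by
  have h1 := (P.rk_lt_iff z r).2 H.zr
  have h2 := P.rk_mono H.rt.le
  have h3 := H.rkt
  omega

end OData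

end Vale.Agent.P040.H682
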