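import Vale.Agent.P040.H251.Plus2
import Vale.Agent.P040.H105.Star

/-!
# P040, odd layer: the data of the leaves and the values `Val T z R v` (FROZEN INTERFACE)

`2h+1` leaves on the spine, every leaf has mass `2`. The leaf `w` has mass `1` in each page, the
other leaves have mass `2` in the page `pg`; there are `h` of them in each page, so that every page
has mass `2h+1 = 2M`.

For the value at the leaf `z` this leaf is cut into two halves of mass `1`: the curve crosses the
spine exactly at `pos z`, the left (inner) half is immediately to the left of this crossing, the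
right (outer) half immediately to the right. For `z ≠ w` both halves are in the page `pg z`; for
`z = w` the left half is in the upper page, the right half in the lower page.

`T : VApi ℝ` is the selector (helper251); the final instance uses `T = vminus`.
-/

set_option autoImplicit false

namespace Vale.Agent.P040.H682O

open P040H251

/-- Leaves on the spine with the pages of their masses. -/
structure OData (h : ℕ) where
  pos : Fin (2 * h + 1) → ℝ
  inj : Function.Injective pos
  w : Fin (2 * h + 1)
  pg : Fin (2 * h + 1) → Bool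
  bal : ∀ b, (Finset.univ.filter fun i => i ≠ w ∧ pg i = b).card = h
  one_le : 1 ≤ h

namespace OData

variable {h : ℕ} (P : OData h)

/-- the number of leaves to the left of `x` -/
noncomputable def rk (x : ℝ) : ℕ := (Finset.univ.filter fun i => P.pos i < x).card

theorem rk_mono : Monotone P.rk := by
  intro x y hxy
  apply Finset.card_le_card
  intro i hi
  rw [Finset.mem_filter] at hi ⊢
  exact ⟨hi.1, lt_of_lt_of_le hi.2 hxy⟩

theorem rk_le (x : ℝ) : P.rk x ≤ 2 * h + 1 := by
  refine (Finset.card_le_univ _).trans ?_
  simp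

theorem rk_pos_lt (i : Fin (2 * h + 1)) : P.rk (P.pos i) < 2 * h + 1 := by
  have h1 : (Finset.univ.filter fun j => P.pos j < P.pos i) ⊂ Finset.univ := by
    rw [Finset.ssubset_univ_iff]
    intro hh
    have : i ∈ Finset.univ.filter fun j => P.pos j < P.pos i := by rw [hh]; simp
    simp at this
  have := Finset.card_lt_card h1
  simpa [rk] using this

theorem rk_lt_iff (i : Fin (2 * h + 1)) (x : ℝ) : P.rk (P.pos i) < P.rk x ↔ P.pos i < x := by
  constructor
  · intro hh
    by_contra hc
    exact absurd (P.rk_mono (not_lt.1 hc)) (not_le.2 hh)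
  · intro hh
    apply Finset.card_lt_card
    rw [Finset.ssubset_iff_of_subset]
    · exact ⟨i, by simpa using hh, by simp⟩
    · intro j hj
      rw [Finset.mem_filter] at hj ⊢
      exact ⟨hj.1, hj.2.trans hh⟩

theorem rk_congr {a b : ℝ} (hab : a ≤ b) (hn : ∀ x, P.pos x ∉ Set.Ico a b) :
    P.rk a = P.rk b := by
  unfold rk
  congr 1
  apply Finset.filter_congr
  intro i _
  constructor
  · intro hh; exact lt_of_lt_of_le hh hab
  · intro hh
    by_contra hc
    exact hn i ⟨not_lt.1 hc, hh⟩

theorem rk_succ (i : Fin (2 * h + 1)) {a : ℝ} (hia : P.pos i < a)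
    (hn : ∀ y, P.pos y ∉ Set.Ioc (P.pos i) a) : P.rk a = P.rk (P.pos i) + 1 := by
  unfold rk
  have h1 : (Finset.univ.filter fun j => P.pos j < a) =
      insert i (Finset.univ.filter fun j => P.pos j < P.pos i) := by
    ext j
    rw [Finset.mem_insert, Finset.mem_filter, Finset.mem_filter]
    constructor
    · rintro ⟨-, hh⟩
      rcases lt_trichotomy (P.pos j) (P.pos i) with h2 | h2 | h2
      · exact Or.inr ⟨Finset.mem_univ _, h2⟩
      · exact Or.inl (P.inj h2)
      · exact absurd ⟨h2, hh.le⟩ (hn j)
    · rintro (rfl | ⟨-, hh⟩)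
      · exact ⟨Finset.mem_univ _, hia⟩
      · exact ⟨Finset.mem_univ _, hh.trans hia⟩
  rw [h1, Finset.card_insert_of_notMem (by simp)]

/-- the mass of the leaf `i` in the page `b` -/
def ms (i : Fin (2 * h + 1)) (b : Bool) : ℕ :=
  if i = P.w then 1 else if P.pg i = b then 2 else 0

theorem ms_add (i : Fin (2 * h + 1)) : P.ms i true + P.ms i false = 2 := by
  unfold ms
  by_cases h1 : i = P.w
  · rw [if_pos h1, if_pos h1]
  · rw [if_neg h1, if_neg h1]
    cases hp : P.pg i <;> simp

/-- the mass of the left half of the leaf `z` in the page `b` -/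
def ni (z : Fin (2 * h + 1)) (b : Bool) : ℕ :=
  if z = P.w then (if b then 1 else 0) else (if P.pg z = b then 1 else 0)

theorem ni_le (z : Fin (2 * h + 1)) (b : Bool) : P.ni z b ≤ P.ms z b := by
  unfold ni ms
  split_ifs <;> norm_num

theorem ni_add (z : Fin (2 * h + 1)) : P.ni z true + P.ni z false = 1 := by
  unfold ni
  by_cases h1 : z = P.w
  · rw [if_pos h1, if_pos h1]; norm_num
  · rw [if_neg h1, if_neg h1]
    cases hp : P.pg z <;> simp

/-- the mass of the page `b` on the leaves of rank `< j` -/
noncomputable def cum (b : Bool) (j : ℕ) : ℕ :=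
  ∑ i ∈ Finset.univ.filter (fun i => P.rk (P.pos i) < j), P.ms i b

theorem cum_mono (b : Bool) : Monotone (P.cum b) := by
  intro j k hjk
  apply Finset.sum_le_sum_of_subset
  intro i hi
  rw [Finset.mem_filter] at hi ⊢
  exact ⟨hi.1, lt_of_lt_of_le hi.2 hjk⟩

theorem cum_zero (b : Bool) : P.cum b 0 = 0 := by
  unfold cum
  rw [Finset.sum_eq_zero]
  intro i hi
  simp at hi

theorem cum_top (b : Bool) : P.cum b (2 * h + 1) = 2 * h + 1 := by
  unfold cum
  have e1 : Finset.univ.filter (fun i => P.rk (P.pos i) < 2 * h + 1) =
      (Finset.univ : Finset (Fin (2 * h + 1))) := by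
    rw [Finset.filter_eq_self]
    intro i _
    exact P.rk_pos_lt i
  rw [e1]
  have e2 : ∀ i, P.ms i b = (if i ≠ P.w ∧ P.pg i = b then 2 else 0) +
      if i = P.w then 1 else 0 := by
    intro i
    unfold ms
    by_cases h1 : i = P.w
    · simp [h1]
    · by_cases h2 : P.pg i = b
      · simp [h1, h2]
      · simp [h1, h2]
  rw [Finset.sum_congr rfl fun i _ => e2 i, Finset.sum_add_distrib, Finset.sum_ite_eq']
  rw [if_pos (Finset.mem_univ _)]
  congr 1
  rw [← Finset.sum_filter, Finset.sum_const, P.bal b]
  simp [mul_comm]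

theorem cum_le (b : Bool) (j : ℕ) : P.cum b j ≤ 2 * h + 1 := by
  rw [← P.cum_top b]
  rcases le_total j (2 * h + 1) with h1 | h1
  · exact P.cum_mono b h1
  · apply Finset.sum_le_sum_of_subset
    intro i _
    rw [Finset.mem_filter]
    exact ⟨Finset.mem_univ _, P.rk_pos_lt i⟩

/-- one leaf -/
theorem cum_succ (b : Bool) (z : Fin (2 * h + 1)) :
    P.cum b (P.rk (P.pos z) + 1) = P.cum b (P.rk (P.pos z)) + P.ms z b := by
  unfold cum
  have h1 : (Finset.univ.filter fun i => P.rk (P.pos i) < P.rk (P.pos z) + 1) =
      insert z (Finset.univ.filter fun i => P.rk (P.pos i) < P.rk (P.pos z)) := by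
    ext i
    rw [Finset.mem_insert, Finset.mem_filter, Finset.mem_filter]
    constructor
    · rintro ⟨-, h2⟩
      rcases Nat.lt_succ_iff_lt_or_eq.1 h2 with h3 | h3
      · exact Or.inr ⟨Finset.mem_univ _, h3⟩
      · left
        by_contra hne
        rcases lt_or_gt_of_ne (fun hh => hne (P.inj hh)) with h4 | h4
        · exact absurd h3 ((P.rk_lt_iff i _).2 h4).ne
        · exact absurd h3 ((P.rk_lt_iff z _).2 h4).ne'
    · rintro (rfl | ⟨h1, h2⟩)
      · exact ⟨Finset.mem_univ _, Nat.lt_succ_self _⟩
      · exact ⟨h1, h2.trans (Nat.lt_succ_self _)⟩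
  rw [h1, Finset.sum_insert (by simp), add_comm]

/-- the masses when the leaf `z` is cut; the label `rk (pos z) + 1` is between the two halves -/
noncomputable def cc (z : Fin (2 * h + 1)) (b : Bool) (j : ℕ) : ℕ :=
  if j ≤ P.rk (P.pos z) then P.cum b j
  else if j = P.rk (P.pos z) + 1 then P.cum b (P.rk (P.pos z)) + P.ni z b
  else P.cum b (j - 1)

theorem cc_mono (z : Fin (2 * h + 1)) (b : Bool) : Monotone (P.cc z b) := by
  apply monotone_nat_of_le_succ
  intro j
  have h2 := P.ni_le z b
  have h3 := P.cum_succ b z
  unfold cc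
  split_ifs with a1 a2 a3 a4 a5 a6
  · exact P.cum_mono b (Nat.le_succ j)
  · have : j = P.rk (P.pos z) := by omega
    rw [this]; omega
  · omega
  · omega
  · omega
  · rw [show j + 1 - 1 = P.rk (P.pos z) + 1 by omega]; omega
  · omega
  · omega
  · exact P.cum_mono b (by omega)

theorem cc_le (z : Fin (2 * h + 1)) (b : Bool) (j : ℕ) : P.cc z b j ≤ 2 * h + 1 := by
  unfold cc
  split_ifs
  · exact P.cum_le b _
  · have h1 := P.cum_le b (P.rk (P.pos z) + 1)
    have h2 := P.cum_succ b z
    have h3 := P.ni_le z b
    omega
  · exact P.cum_le b _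

/-- **The data of the spine with the leaf `z` cut.** -/
noncomputable def DZ (z : Fin (2 * h + 1)) : Dat ℝ where
  lab := fun x => P.rk x + if P.pos z ≤ x then 1 else 0
  mono := by
    intro x y hxy
    have := P.rk_mono hxy
    show P.rk x + (if P.pos z ≤ x then 1 else 0) ≤ P.rk y + (if P.pos z ≤ y then 1 else 0)
    split_ifs with h1 h2
    · omega
    · exact absurd (le_trans h1 hxy) h2
    · omega
    · omega
  C := fun b j => P.cc z b j
  Cmono := fun b _ _ hjk => Nat.cast_le.2 (P.cc_mono z b hjk)
  M := (2 * h + 1) / 2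
  pos := by positivity
  tot := fun b i j => by
    have h1 : (P.cc z b j : ℝ) ≤ ((2 * h + 1 : ℕ) : ℝ) := Nat.cast_le.2 (P.cc_le z b j)
    have h2 : (0 : ℝ) ≤ P.cc z b i := Nat.cast_nonneg _
    push_cast at h1
    linarith

/-- the letters of the gaps; the gap through infinity is one letter -/
noncomputable def G0 : Pst.Gaps P.pos ℕ where
  gap := fun x => P.rk x % (2 * h + 1)
  lt := fun i => P.rk (P.pos i)
  rt := fun i => (P.rk (P.pos i) + 1) % (2 * h + 1)
  const := fun a b hab hn => by
    rw [P.rk_congr hab fun x hx => hn x ⟨hx.1, hx.2.le⟩]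
  left := fun x a ha hn => by
    rw [P.rk_congr ha.le hn, Nat.mod_eq_of_lt (P.rk_pos_lt x)]
  right := fun x a ha hn => by
    rw [P.rk_succ x ha hn]

/-- `l` is the point next to the leaf `z` on the left; the second point of the curve is `l` (the
leaf is reached from below) or the last point is `l` (the leaf is reached from above). -/
structure Fat (z : Fin (2 * h + 1)) (l : ℝ) (L : List ℝ) : Prop where
  fl : L.head? = some l ∨ L.getLast? = some l
  lz : l < P.pos z
  emp : ∀ x ∈ L, ¬ (l < x ∧ x < P.pos z)
  rkl : P.rk l = P.rk (P.pos z)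

/-- **The values.** `Val T z R v`: there is a closed curve through the middle of the leaf `z`, read
from the crossing `pos z` where it crosses upwards, with the word `R` (the left half of `z` and `R`
are inside), and the selector has the value `v` relative to this point; in units where a leaf has
mass `1`. -/
def Val (T : VApi ℝ) (z : Fin (2 * h + 1)) (R : FreeGroup ℕ) (v : ℝ) : Prop :=
  ∃ (l : ℝ) (L : List ℝ) (E : ℝ → ℝ), Crv (P.DZ z) true (P.pos z :: L) E ∧ P.Fat z l L ∧
    Pst.wd P.G0 true L = R * FreeGroup.of (P.G0.lt z) ∧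
    2 * v = T.val true (P.pos z :: L) E - E (P.pos z)

end OData

/-- balanced pages; the leaf `0` is the leaf `w` -/
def mkData {h : ℕ} (hh : 1 ≤ h) (leaf : Fin (2 * h + 1) → ℝ) (hl : Function.Injective leaf) :
    OData h where
  pos := leaf
  inj := hl
  w := 0
  pg := fun i => decide (i.val < h + 1)
  bal := by
    intro b
    have key : (Finset.univ.filter fun i : Fin (2 * h + 1) => i.val < h + 1).card = h + 1 := by
      rw [Fin.card_filter_val_lt]
      omega
    have k0 : (0 : Fin (2 * h + 1)) ∈
        (Finset.univ.filter fun i : Fin (2 * h + 1) => i.val < h + 1) := by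
      simp
    have k1 : ((Finset.univ.filter fun i : Fin (2 * h + 1) => i.val < h + 1).erase 0).card = h := by
      rw [Finset.card_erase_of_mem k0, key]; rfl
    cases b
    · have h1 : (Finset.univ.filter fun i : Fin (2 * h + 1) =>
          i ≠ 0 ∧ decide (i.val < h + 1) = false) =
          Finset.univ \ (Finset.univ.filter fun i : Fin (2 * h + 1) => i.val < h + 1) := by
        ext i
        simp only [ne_eq, decide_eq_false_iff_not, Finset.mem_filter, Finset.mem_univ, true_and,
          Finset.mem_sdiff]
        constructor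
        · exact fun hh => hh.2
        · intro hh
          refine ⟨?_, hh⟩
          rintro rfl
          exact hh (by simp)
      rw [h1, Finset.card_sdiff_of_subset (Finset.filter_subset _ _), key, Finset.card_univ,
        Fintype.card_fin]
      omega
    · have h1 : (Finset.univ.filter fun i : Fin (2 * h + 1) =>
          i ≠ 0 ∧ decide (i.val < h + 1) = true) =
          (Finset.univ.filter fun i : Fin (2 * h + 1) => i.val < h + 1).erase 0 := by
        ext i
        simp only [ne_eq, decide_eq_true_eq, Finset.mem_filter, Finset.mem_univ, true_and,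
          Finset.mem_erase]
      rw [h1, k1]
  one_le := hh

end Vale.Agent.P040.H682O
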