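import Vale.Agent.P040.Even.Complete
import Mathlib.Data.Nat.Periodic

/-!
# Two-page drawings of the complete graph: the count (helper682)

The pair `{i, j}` of points of a line goes to the upper or the lower page according to the residue
of `i + j + c` modulo `n`. For some offset `c` at most `Z(n)` pairs of chords interleave on the
same page, by averaging over `c`.
-/

set_option autoImplicit false

namespace Vale.Agent.P040.H682.Two

open Finset Vale.Agent.P040.Even

/-- the page of the pairs with sum `s`, with offset `c`, on `n` points -/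
def pg (n c s : ℕ) : Bool := decide ((s + c) % n < n / 2)

/-- the interleaving quadruples `(i, k, j, l)`: the chords are `ij` and `kl` -/
def quads (n : ℕ) : Finset (ℕ × ℕ × ℕ × ℕ) :=
  (range n ×ˢ range n ×ˢ range n ×ˢ range n).filter fun q =>
    q.1 < q.2.1 ∧ q.2.1 < q.2.2.1 ∧ q.2.2.1 < q.2.2.2

/-- the ones with both chords on the same page -/
def same (n c : ℕ) : Finset (ℕ × ℕ × ℕ × ℕ) :=
  (quads n).filter fun q => pg n c (q.1 + q.2.2.1) = pg n c (q.2.1 + q.2.2.2)

/-- the number of offsets which put two chords whose sums differ by `D` on the same page -/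
def wt (n D : ℕ) : ℕ := if D ≤ n / 2 then n - 2 * D else 2 * D - n

theorem card_pages {n D : ℕ} (hn : 0 < n) (hD : D ≤ n) (s : ℕ) :
    ((range n).filter fun c => pg n c s = pg n c (s + D)).card ≤ wt n D := by
  classical
  let P : ℕ → Prop := fun x => (x % n < n / 2 ↔ (x + D) % n < n / 2)
  have h1 : ((range n).filter fun c => pg n c s = pg n c (s + D)).card =
      ((Ico s (s + n)).filter P).card := by
    apply card_bij (fun c _ => s + c)
    · intro c hc
      simp only [mem_filter, mem_range, pg, decide_eq_decide] at hc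
      simp only [mem_filter, mem_Ico, P]
      refine ⟨⟨by omega, by omega⟩, ?_⟩
      rw [show s + c + D = s + D + c by ring]
      exact hc.2
    · intro c _ c' _ h
      omega
    · intro x hx
      simp only [mem_filter, mem_Ico, P] at hx
      refine ⟨x - s, ?_, by omega⟩
      simp only [mem_filter, mem_range, pg, decide_eq_decide]
      refine ⟨by omega, ?_⟩
      rw [show s + (x - s) = x by omega, show s + D + (x - s) = x + D by omega]
      exact hx.2
  have pp : Function.Periodic P n := by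
    intro x
    simp only [P]
    rw [Nat.add_mod_right, show x + n + D = x + D + n by ring, Nat.add_mod_right]
  rw [h1, Nat.filter_Ico_card_eq_of_periodic _ _ _ pp, Nat.count_eq_card_filter_range]
  have hx : ∀ x ∈ (range n).filter P, x < n ∧
      (x < n / 2 ↔ ((x + D < n ∧ x + D < n / 2) ∨ (n ≤ x + D ∧ x + D - n < n / 2))) := by
    intro x hx
    simp only [mem_filter, mem_range, P] at hx
    obtain ⟨h2, h3⟩ := hx
    rw [Nat.mod_eq_of_lt h2] at h3
    refine ⟨h2, h3.trans ?_⟩
    rcases Nat.lt_or_ge (x + D) n with h4 | h4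
    · rw [Nat.mod_eq_of_lt h4]
      omega
    · rw [Nat.mod_eq_sub_mod h4]
      rcases Nat.lt_or_ge (x + D - n) n with h5 | h5
      · rw [Nat.mod_eq_of_lt h5]
        omega
      · omega
  unfold wt
  split_ifs with hc
  · calc ((range n).filter P).card ≤ (Ico 0 (n / 2 - D) ∪ Ico (n / 2) (n - D)).card := by
          apply card_le_card
          intro x h
          have := hx x h
          simp only [mem_union, mem_Ico]
          omega
      _ ≤ (Ico 0 (n / 2 - D)).card + (Ico (n / 2) (n - D)).card := card_union_le _ _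
      _ ≤ n - 2 * D := by
          rw [Nat.card_Ico, Nat.card_Ico]
          omega
  · calc ((range n).filter P).card ≤ (Ico (n - D) (n / 2) ∪ Ico (n + n / 2 - D) n).card := by
          apply card_le_card
          intro x h
          have := hx x h
          simp only [mem_union, mem_Ico]
          omega
      _ ≤ (Ico (n - D) (n / 2)).card + (Ico (n + n / 2 - D) n).card := card_union_le _ _
      _ ≤ 2 * D - n := by
          rw [Nat.card_Ico, Nat.card_Ico]
          omega

theorem fiber_card (n D : ℕ) :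
    ((quads n).filter fun q => q.2.1 + q.2.2.2 - (q.1 + q.2.2.1) = D).card ≤
      (D - 1) * ((n - D) * (n - D - 1) / 2) := by
  have hcard : ((Ico 1 D) ×ˢ ((range (n - D)).sigma fun j => range j)).card =
      (D - 1) * ((n - D) * (n - D - 1) / 2) := by
    rw [card_product, Nat.card_Ico, card_sigma]
    simp only [card_range, Finset.sum_range_id]
  rw [← hcard]
  apply card_le_card_of_injOn (fun q => (q.2.1 - q.1, ⟨q.2.2.1 - (q.2.1 - q.1), q.1⟩))
  · rintro ⟨i, k, j, l⟩ h
    simp only [quads, coe_filter, mem_filter, mem_product, mem_range, Set.mem_ofPred_eq] at h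
    simp only [coe_product, coe_sigma, Set.mem_prod, mem_coe, mem_Ico, Set.mem_sigma_iff,
      mem_range]
    omega
  · rintro ⟨i, k, j, l⟩ h ⟨i', k', j', l'⟩ h' he
    simp only [quads, coe_filter, mem_filter, mem_product, mem_range, Set.mem_ofPred_eq] at h h'
    simp only [Prod.mk.injEq, Sigma.mk.injEq, heq_eq_eq] at he ⊢
    omega

/-- the terms of the sum -/
def T (n d : ℤ) : ℤ := (n - 2 - 2 * d) * d * (n - 1 - d) * (n - 2 - d)

theorem sum_T (n : ℤ) (E : ℕ) : 60 * ∑ d ∈ range E, T n d =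
    30 * ((n - 1) * (n - 2) ^ 2) * (E * (E - 1)) -
      10 * ((n - 2) * (4 * n - 5)) * (E * (E - 1) * (2 * E - 1)) +
      15 * (5 * n - 8) * (E ^ 2 * (E - 1) ^ 2) -
      4 * (E * (E - 1) * (2 * E - 1) * (3 * E ^ 2 - 3 * E - 1)) := by
  induction E with
  | zero => simp
  | succ E ih =>
    rw [sum_range_succ, mul_add, ih]
    unfold T
    push_cast
    ring

theorem sum_wt (h r : ℕ) (hr : h ≤ r + 1) (hr' : r ≤ h) :
    ((∑ d ∈ range (h + r), d * ((h + r + 1 - (d + 1)) * (h + r + 1 - (d + 1) - 1)) *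
      wt (h + r + 1) (d + 1) : ℕ) : ℤ) =
    2 * ∑ d ∈ range h, T (h + r + 1) d - ∑ d ∈ range (h + r), T (h + r + 1) d := by
  have hh : (h + r + 1) / 2 = h := by omega
  rw [sum_range_add, sum_range_add]
  push_cast
  have e1 : ∀ d ∈ range h, ((d * ((h + r + 1 - (d + 1)) * (h + r + 1 - (d + 1) - 1)) *
      wt (h + r + 1) (d + 1) : ℕ) : ℤ) = T (h + r + 1) d := by
    intro d hd
    rw [mem_range] at hd
    unfold wt T
    rw [if_pos (by omega)]
    rw [show h + r + 1 - (d + 1) = h + r - d by omega]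
    rcases Nat.eq_zero_or_pos (h + r - d) with h0 | h0
    · rw [h0]
      have : ((h : ℤ) + r - d) = 0 := by omega
      push_cast
      rw [show (h : ℤ) + r + 1 - 1 - d = 0 by omega]
      ring
    · push_cast [Nat.cast_sub (show 1 ≤ h + r - d by omega), Nat.cast_sub (show d ≤ h + r by omega),
        Nat.cast_sub (show 2 * (d + 1) ≤ h + r + 1 by omega)]
      ring
  have e2 : ∀ x ∈ range r, (((h + x) * ((h + r + 1 - (h + x + 1)) *
      (h + r + 1 - (h + x + 1) - 1)) * wt (h + r + 1) (h + x + 1) : ℕ) : ℤ) =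
      - T (h + r + 1) ((h + x : ℕ) : ℤ) := by
    intro x hx
    rw [mem_range] at hx
    unfold wt T
    rw [if_neg (by omega)]
    rw [show h + r + 1 - (h + x + 1) = r - x by omega]
    push_cast [Nat.cast_sub (show 1 ≤ r - x by omega), Nat.cast_sub (show x ≤ r by omega),
        Nat.cast_sub (show h + r + 1 ≤ 2 * (h + x + 1) by omega)]
    ring
  have f1 := sum_congr rfl e1
  have f2 := sum_congr rfl e2
  rw [sum_neg_distrib] at f2
  push_cast at f1 f2
  rw [f1, f2]
  ring

theorem four_hill_even (p : ℕ) :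
    (4 * hill (2 * (p + 1)) : ℤ) = (p + 1) * p * p * (p - 1) := by
  rcases Nat.eq_zero_or_pos p with rfl | hp
  · simp [hill]
  obtain ⟨q, rfl⟩ : ∃ q, p = q + 1 := ⟨p - 1, by omega⟩
  have h4 : 4 ∣ (q + 2) * (q + 1) * (q + 1) * q := by
    rcases Nat.even_or_odd q with ⟨r, rfl⟩ | ⟨r, rfl⟩
    · exact ⟨(r + 1) * (r + r + 1) * (r + r + 1) * r, by ring⟩
    · exact ⟨(2 * r + 3) * (r + 1) * (r + 1) * (2 * r + 1), by ring⟩
  have h5 : 4 * hill (2 * (q + 1 + 1)) = (q + 2) * (q + 1) * (q + 1) * q := by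
    unfold hill
    rw [show 2 * (q + 1 + 1) / 2 = q + 2 by omega, show (2 * (q + 1 + 1) - 1) / 2 = q + 1 by omega,
      show (2 * (q + 1 + 1) - 2) / 2 = q + 1 by omega, show (2 * (q + 1 + 1) - 3) / 2 = q by omega]
    omega
  have h6 : ((4 * hill (2 * (q + 1 + 1)) : ℕ) : ℤ) =
      (((q + 2) * (q + 1) * (q + 1) * q : ℕ) : ℤ) := by rw [h5]
  push_cast at h6 ⊢
  rw [h6]
  ring

theorem four_hill_odd (p : ℕ) :
    (4 * hill (2 * p + 1) : ℤ) = p * p * ((p - 1) * (p - 1)) := by
  rcases Nat.eq_zero_or_pos p with rfl | hp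
  · simp [hill]
  obtain ⟨q, rfl⟩ : ∃ q, p = q + 1 := ⟨p - 1, by omega⟩
  have h4 : 4 ∣ (q + 1) * (q + 1) * q * q := by
    rcases Nat.even_or_odd q with ⟨r, rfl⟩ | ⟨r, rfl⟩
    · exact ⟨(r + r + 1) * (r + r + 1) * r * r, by ring⟩
    · exact ⟨(r + 1) * (r + 1) * (2 * r + 1) * (2 * r + 1), by ring⟩
  have h5 : 4 * hill (2 * (q + 1) + 1) = (q + 1) * (q + 1) * q * q := by
    unfold hill
    rw [show (2 * (q + 1) + 1) / 2 = q + 1 by omega, show (2 * (q + 1) + 1 - 1) / 2 = q + 1 by omega,
      show (2 * (q + 1) + 1 - 2) / 2 = q by omega, show (2 * (q + 1) + 1 - 3) / 2 = q by omega]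
    omega
  have h6 : ((4 * hill (2 * (q + 1) + 1) : ℕ) : ℤ) =
      (((q + 1) * (q + 1) * q * q : ℕ) : ℤ) := by rw [h5]
  push_cast at h6 ⊢
  rw [h6]
  ring

theorem sum_eq (n : ℕ) (hn : 0 < n) :
    ∑ d ∈ range (n - 1), d * ((n - (d + 1)) * (n - (d + 1) - 1)) * wt n (d + 1) =
      2 * (n * hill n) := by
  rcases Nat.even_or_odd' n with ⟨q, rfl | rfl⟩
  · obtain ⟨p, rfl⟩ : ∃ p, q = p + 1 := ⟨q - 1, by omega⟩
    have h1 := sum_wt (p + 1) p (by omega) (by omega)
    have h2 := sum_T ((p + 1 : ℕ) + (p : ℕ) + 1) (p + 1)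
    have h3 := sum_T ((p + 1 : ℕ) + (p : ℕ) + 1) (p + 1 + p)
    have h4 := four_hill_even p
    rw [show 2 * (p + 1) - 1 = p + 1 + p by omega]
    rw [show p + 1 + p + 1 = 2 * (p + 1) by ring] at h1
    zify at h1 h2 h3 h4 ⊢
    rw [h1]
    have h5 : (2 * ((2 * (p + 1) : ℤ) * (hill (2 * (p + 1)) : ℤ))) =
        (p + 1) * (4 * hill (2 * (p + 1))) := by
      ring
    rw [h5, h4]
    apply mul_left_cancel₀ (show (60 : ℤ) ≠ 0 by norm_num)
    linear_combination 2 * h2 - h3
  · have h1 := sum_wt q q (by omega) (by omega)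
    have h2 := sum_T ((q : ℕ) + (q : ℕ) + 1) q
    have h3 := sum_T ((q : ℕ) + (q : ℕ) + 1) (q + q)
    have h4 := four_hill_odd q
    rw [show 2 * q + 1 - 1 = q + q by omega]
    rw [show q + q + 1 = 2 * q + 1 by ring] at h1
    zify at h1 h2 h3 h4 ⊢
    rw [h1]
    have h5 : (2 * ((2 * q + 1 : ℤ) * (hill (2 * q + 1) : ℤ))) * 2 =
        (2 * q + 1) * (4 * hill (2 * q + 1)) := by
      ring
    rw [h4] at h5
    apply mul_left_cancel₀ (show (120 : ℤ) ≠ 0 by norm_num)
    linear_combination 4 * h2 - 2 * h3 - 60 * h5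

/-- the sum over all offsets -/
theorem sum_same_le (n : ℕ) : ∑ c ∈ range n, (same n c).card ≤ n * hill n := by
  rcases Nat.eq_zero_or_pos n with rfl | hn
  · simp
  have h1 : ∑ c ∈ range n, (same n c).card = ∑ q ∈ quads n,
      ((range n).filter fun c => pg n c (q.1 + q.2.2.1) = pg n c (q.2.1 + q.2.2.2)).card := by
    simp only [same, card_filter]
    exact sum_comm
  have h2 : ∑ q ∈ quads n,
      ((range n).filter fun c => pg n c (q.1 + q.2.2.1) = pg n c (q.2.1 + q.2.2.2)).card ≤
      ∑ q ∈ quads n, wt n (q.2.1 + q.2.2.2 - (q.1 + q.2.2.1)) := by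
    apply sum_le_sum
    rintro ⟨i, k, j, l⟩ hq
    simp only [quads, mem_filter, mem_product, mem_range] at hq
    have h := card_pages hn (show k + l - (i + j) ≤ n by omega) (i + j)
    rw [show i + j + (k + l - (i + j)) = k + l by omega] at h
    exact h
  have hmaps : ∀ q ∈ quads n, q.2.1 + q.2.2.2 - (q.1 + q.2.2.1) ∈ range n := by
    rintro ⟨i, k, j, l⟩ hq
    simp only [quads, mem_filter, mem_product, mem_range] at hq ⊢
    omega
  have h3 : ∑ q ∈ quads n, wt n (q.2.1 + q.2.2.2 - (q.1 + q.2.2.1)) ≤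
      ∑ D ∈ range n, ((D - 1) * ((n - D) * (n - D - 1) / 2)) * wt n D := by
    rw [← sum_fiberwise_of_maps_to hmaps]
    apply sum_le_sum
    intro D _
    rw [sum_congr rfl (fun q hq => by rw [(mem_filter.1 hq).2] :
      ∀ q ∈ (quads n).filter fun q => q.2.1 + q.2.2.2 - (q.1 + q.2.2.1) = D,
        wt n (q.2.1 + q.2.2.2 - (q.1 + q.2.2.1)) = wt n D), sum_const, smul_eq_mul]
    exact Nat.mul_le_mul_right _ (fiber_card n D)
  have h4 : 2 * ∑ D ∈ range n, ((D - 1) * ((n - D) * (n - D - 1) / 2)) * wt n D =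
      2 * (n * hill n) := by
    rw [← sum_eq n hn, mul_sum]
    obtain ⟨m, rfl⟩ : ∃ m, n = m + 1 := ⟨n - 1, by omega⟩
    rw [sum_range_succ', show m + 1 - 1 = m by omega]
    simp only [show ∀ d, d + 1 - 1 = d by omega, Nat.zero_sub, zero_mul, mul_zero, add_zero]
    apply sum_congr rfl
    intro d _
    have h5 : 2 ∣ (m + 1 - (d + 1)) * (m + 1 - (d + 1) - 1) := by
      rcases Nat.eq_zero_or_pos (m + 1 - (d + 1)) with h0 | h0
      · rw [h0]
        simp
      · have := (Nat.even_mul_succ_self (m + 1 - (d + 1) - 1)).two_dvd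
        rw [show m + 1 - (d + 1) - 1 + 1 = m + 1 - (d + 1) by omega, mul_comm] at this
        exact this
    obtain ⟨k, hk⟩ := h5
    rw [hk, Nat.mul_div_cancel_left _ (by norm_num)]
    ring
  omega

/-- some offset gives at most `Z(n)` interleaving pairs of chords on the same page -/
theorem exists_same_le (n : ℕ) : ∃ c, (same n c).card ≤ hill n := by
  rcases Nat.eq_zero_or_pos n with rfl | hn
  · exact ⟨0, by simp [same, quads]⟩
  have h := sum_same_le n
  have h2 : ∑ c ∈ range n, (same n c).card ≤ ∑ _c ∈ range n, hill n := by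
    rw [sum_const, card_range, smul_eq_mul]
    exact h
  obtain ⟨c, _, hc⟩ := exists_le_of_sum_le (nonempty_range_iff.2 (by omega)) h2
  exact ⟨c, hc⟩

end Vale.Agent.P040.H682.Two
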