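import Vale.Agent.P040.DrawingClasses
import Vale.Agent.P040.H682.TwoCount

/-!
# Two-page drawings of the complete graph: the geometry (helper682)

The vertex `i` is the point `(a i, 0)` with `a i = 2 ^ (2 ^ i)`, and the edge `ij` is the part of
the parabola `y = ± (x - a i) (a j - x)` between them, with the sign given by the page.
-/

set_option autoImplicit false

namespace Vale.Agent.P040.H682.Two

open Set Vale.Agent.P040

/-- the abscissa of the vertex `i` -/
noncomputable def ab (i : ℕ) : ℝ := 2 ^ (2 ^ i)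

theorem ab_two (i : ℕ) : 2 ≤ ab i := by
  unfold ab
  calc (2 : ℝ) = 2 ^ 1 := by norm_num
    _ ≤ 2 ^ (2 ^ i) := pow_le_pow_right₀ (by norm_num) Nat.one_le_two_pow

theorem ab_sq {i j : ℕ} (h : i < j) : ab i ^ 2 ≤ ab j := by
  unfold ab
  rw [← pow_mul, ← pow_succ]
  exact pow_le_pow_right₀ (by norm_num) (Nat.pow_le_pow_right (by norm_num) h)

theorem ab_lt {i j : ℕ} (h : i < j) : ab i < ab j := by
  have h1 := ab_sq h
  have h2 := ab_two i
  nlinarith

theorem ab_inj {i j : ℕ} (h : ab i = ab j) : i = j := by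
  rcases Nat.lt_trichotomy i j with h1 | h1 | h1
  · exact absurd h (ab_lt h1).ne
  · exact h1
  · exact absurd h (ab_lt h1).ne'

/-- the sign of a page -/
def sg (b : Bool) : ℝ := if b then 1 else -1

theorem sg_eq {b b' : Bool} {x y : ℝ} (hx : 0 < x) (hy : 0 < y) (h : sg b * x = sg b' * y) :
    b = b' ∧ x = y := by
  cases b <;> cases b' <;> simp only [sg, if_true, if_false, Bool.false_eq_true] at h ⊢ <;>
    constructor <;> first | trivial | linarith

theorem sg_ne (b : Bool) : sg b ≠ 0 := by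
  cases b <;> simp [sg]

theorem sg_mul (b : Bool) : sg b * sg b = 1 := by
  cases b <;> simp [sg]

/-- the parabola from `i` to `j` -/
noncomputable def par (b : Bool) (i j : ℕ) (t : ℝ) : ℝ := sg b * ((t - ab i) * (ab j - t))

theorem par_cont (b : Bool) (i j : ℕ) : Continuous (par b i j) := by
  unfold par
  fun_prop

/-- the arc from `i` to `j` -/
def pArc (b : Bool) (i j : ℕ) : Set Plane :=
  {p | p.1 ∈ uIcc (ab i) (ab j) ∧ p.2 = par b i j p.1}

theorem pArc_comm (b : Bool) (i j : ℕ) : pArc b i j = pArc b j i := by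
  ext p
  simp only [pArc, mem_ofPred_eq, par]
  rw [uIcc_comm (ab i)]
  rw [show (p.1 - ab i) * (ab j - p.1) = (p.1 - ab j) * (ab i - p.1) by ring]

theorem mem_pArc {b : Bool} {i j : ℕ} (h : i < j) {p : Plane} :
    p ∈ pArc b i j ↔ (ab i ≤ p.1 ∧ p.1 ≤ ab j) ∧ p.2 = par b i j p.1 := by
  simp only [pArc, mem_ofPred_eq]
  rw [uIcc_of_le (ab_lt h).le, mem_Icc]

theorem isArc_pArc (b : Bool) {i j : ℕ} (h : i ≠ j) :
    IsArc (pArc b i j) (ab i, 0) (ab j, 0) := by
  have hne : ab j - ab i ≠ 0 := fun h' => h (ab_inj (by linarith))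
  refine ⟨fun s => (ab i + s * (ab j - ab i), par b i j (ab i + s * (ab j - ab i))), ?_, ?_, ?_, ?_,
    ?_⟩
  · apply Continuous.continuousOn
    have := par_cont b i j
    fun_prop
  · intro s _ s' _ hs
    have h1 : ab i + s * (ab j - ab i) = ab i + s' * (ab j - ab i) := congrArg Prod.fst hs
    exact mul_right_cancel₀ hne (by linarith)
  · simp [par]
  · simp [par]
  · ext p
    simp only [mem_image, pArc, mem_ofPred_eq]
    constructor
    · rintro ⟨s, ⟨hs0, hs1⟩, rfl⟩
      refine ⟨?_, rfl⟩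
      rw [mem_uIcc]
      rcases le_total (ab i) (ab j) with h1 | h1
      · left
        constructor <;> simp only <;> nlinarith
      · right
        constructor <;> simp only <;> nlinarith
    · rintro ⟨h1, h2⟩
      refine ⟨(p.1 - ab i) / (ab j - ab i), ?_, ?_⟩
      · rw [mem_uIcc] at h1
        rcases lt_or_gt_of_ne hne with h3 | h3
        · constructor
          · exact div_nonneg_of_nonpos (by rcases h1 with h1 | h1 <;> linarith) h3.le
          · rw [div_le_one_of_neg h3]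
            rcases h1 with h1 | h1 <;> linarith
        · constructor
          · exact div_nonneg (by rcases h1 with h1 | h1 <;> linarith) h3.le
          · rw [div_le_one h3]
            rcases h1 with h1 | h1 <;> linarith
      · have h3 : ab i + (p.1 - ab i) / (ab j - ab i) * (ab j - ab i) = p.1 := by
          rw [div_mul_cancel₀ _ hne]
          ring
        rw [h3, ← h2]

/-- the interior points of an arc -/
theorem mem_int {b : Bool} {i j : ℕ} (h : i < j) {p : Plane} (hp : p ∈ pArc b i j)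
    (hi : p ≠ (ab i, 0)) (hj : p ≠ (ab j, 0)) : ab i < p.1 ∧ p.1 < ab j ∧ p.2 = par b i j p.1 := by
  rw [mem_pArc h] at hp
  obtain ⟨⟨h1, h2⟩, h3⟩ := hp
  refine ⟨lt_of_le_of_ne h1 ?_, lt_of_le_of_ne h2 ?_, h3⟩
  · intro h4
    apply hi
    apply Prod.ext
    · exact h4.symm
    · rw [h3, ← h4]
      simp [par]
  · intro h4
    apply hj
    apply Prod.ext
    · exact h4
    · rw [h3, h4]
      simp [par]

/-- two parabolas meet in their interiors only if they are on the same page and interleave -/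
theorem interleave {b b' : Bool} {i j k l : ℕ} {p : Plane} (hne : ¬ (i = k ∧ j = l))
    (h1 : ab i < p.1 ∧ p.1 < ab j ∧ p.2 = par b i j p.1)
    (h2 : ab k < p.1 ∧ p.1 < ab l ∧ p.2 = par b' k l p.1) :
    b = b' ∧ (p.1 - ab i) * (ab j - p.1) = (p.1 - ab k) * (ab l - p.1) ∧
      ((i < k ∧ k < j ∧ j < l) ∨ (k < i ∧ i < l ∧ l < j)) := by
  obtain ⟨h3, h4, h5⟩ := h1
  obtain ⟨h6, h7, h8⟩ := h2
  rw [h5] at h8
  unfold par at h8
  have hx : 0 < (p.1 - ab i) * (ab j - p.1) := mul_pos (by linarith) (by linarith)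
  have hy : 0 < (p.1 - ab k) * (ab l - p.1) := mul_pos (by linarith) (by linarith)
  obtain ⟨h9, h10⟩ := sg_eq hx hy h8
  refine ⟨h9, h10, ?_⟩
  have hkj : k < j := by
    by_contra hc
    rcases Nat.lt_or_ge j k with h11 | h11
    · have := ab_lt h11
      linarith
    · have : j = k := by omega
      subst this
      linarith
  have hil : i < l := by
    by_contra hc
    rcases Nat.lt_or_ge l i with h11 | h11
    · have := ab_lt h11
      linarith
    · have : i = l := by omega
      subst this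
      linarith
  rcases Nat.lt_trichotomy i k with hik | hik | hik
  · left
    refine ⟨hik, hkj, ?_⟩
    by_contra hc
    have h11 : ab l ≤ ab j := by
      rcases Nat.lt_or_ge l j with h11 | h11
      · exact (ab_lt h11).le
      · rw [show j = l by omega]
    have h12 := ab_lt hik
    nlinarith [mul_pos (sub_pos.2 h12) (sub_pos.2 h4),
      mul_nonneg (sub_nonneg.2 h11) (sub_pos.2 h6).le]
  · subst hik
    have h11 : ab j - p.1 = ab l - p.1 := mul_left_cancel₀ (by linarith : p.1 - ab i ≠ 0) h10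
    exact absurd ⟨rfl, ab_inj (by linarith)⟩ hne
  · right
    refine ⟨hik, hil, ?_⟩
    by_contra hc
    have h11 : ab j ≤ ab l := by
      rcases Nat.lt_or_ge j l with h11 | h11
      · exact (ab_lt h11).le
      · rw [show l = j by omega]
    have h12 := ab_lt hik
    nlinarith

/-- proper crossing of two graphs whose difference is an affine function -/
theorem crossAt_graph {f g : ℝ → ℝ} (hf : Continuous f) (hg : Continuous g) {α β : ℝ}
    (hα : α ≠ 0) (h : ∀ t, g t - f t = α * t + β) {S T : Set Plane} {u v : ℝ}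
    (hS : ∀ p : Plane, u < p.1 → p.1 < v → (p ∈ S ↔ p.2 = f p.1))
    (hT : ∀ p : Plane, u < p.1 → p.1 < v → (p ∈ T ↔ p.2 = g p.1)) {x : Plane}
    (hu : u < x.1) (hv : x.1 < v) (hxS : x.2 = f x.1) (hxT : x.2 = g x.1) : CrossAt S T x := by
  let e : Plane ≃ₜ Plane :=
    { toFun := fun p => (p.2 - g p.1, p.2 - f p.1)
      invFun := fun q => ((q.2 - q.1 - β) / α, q.1 + g ((q.2 - q.1 - β) / α))
      left_inv := by
        rintro ⟨t, s⟩
        have h1 : (s - f t - (s - g t) - β) / α = t := by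
          rw [div_eq_iff hα]
          have := h t
          linarith
        simp only [h1]
        apply Prod.ext
        · rfl
        · simp
      right_inv := by
        rintro ⟨q, r⟩
        simp only
        have h1 := h ((r - q - β) / α)
        rw [mul_div_cancel₀ _ hα] at h1
        apply Prod.ext
        · simp
        · simp only
          linarith
      continuous_toFun := by fun_prop
      continuous_invFun := by fun_prop }
  have he : ∀ p : Plane, e p = (p.2 - g p.1, p.2 - f p.1) := fun _ => rfl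
  have hU : IsOpen {p : Plane | u < p.1 ∧ p.1 < v} :=
    (isOpen_lt continuous_const continuous_fst).inter (isOpen_lt continuous_fst continuous_const)
  refine ⟨e.toOpenPartialHomeomorphOfImageEq {p : Plane | u < p.1 ∧ p.1 < v} hU _ rfl, ⟨hu, hv⟩,
    ?_, ?_, ?_⟩
  · change e x = (0, 0)
    rw [he, ← hxS, ← hxT]
    simp
  · rintro p ⟨h1, h2⟩
    change p ∈ S ↔ (e p).2 = 0
    rw [hS p h1 h2, he]
    exact sub_eq_zero.symm
  · rintro p ⟨h1, h2⟩
    change p ∈ T ↔ (e p).1 = 0
    rw [hT p h1 h2, he]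
    exact sub_eq_zero.symm

/-- two interleaving parabolas on the same page cross properly -/
theorem crossAt_par {b : Bool} {i j k l : ℕ} {x : Plane}
    (h1 : ab i < x.1 ∧ x.1 < ab j ∧ x.2 = par b i j x.1)
    (h2 : ab k < x.1 ∧ x.1 < ab l ∧ x.2 = par b k l x.1)
    (hij : i < j) (hkl : k < l) (hs : ab k + ab l - ab i - ab j ≠ 0) :
    CrossAt (pArc b i j) (pArc b k l) x := by
  refine crossAt_graph (par_cont b i j) (par_cont b k l)
    (α := sg b * (ab k + ab l - ab i - ab j)) (β := sg b * (ab i * ab j - ab k * ab l))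
    (mul_ne_zero (sg_ne b) hs) ?_ (u := max (ab i) (ab k)) (v := min (ab j) (ab l)) ?_ ?_
    (max_lt h1.1 h2.1) (lt_min h1.2.1 h2.2.1) h1.2.2 h2.2.2
  · intro t
    unfold par
    ring
  · intro p hp1 hp2
    rw [max_lt_iff] at hp1
    rw [lt_min_iff] at hp2
    rw [mem_pArc hij]
    exact ⟨fun h => h.2, fun h => ⟨⟨hp1.1.le, hp2.1.le⟩, h⟩⟩
  · intro p hp1 hp2
    rw [max_lt_iff] at hp1
    rw [lt_min_iff] at hp2
    rw [mem_pArc hkl]
    exact ⟨fun h => h.2, fun h => ⟨⟨hp1.2.le, hp2.2.le⟩, h⟩⟩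

/-- three parabolas have no common interior point -/
theorem no_three {i j k l m : ℕ} {t : ℝ} (hik : i < k) (hkm : k < m) (hjl : j < l)
    (hm : ab m < t) (hj : t < ab j)
    (h : (t - ab i) * (ab j - t) = (t - ab k) * (ab l - t)) : False := by
  have h1 := ab_two i
  have h2 := ab_two k
  have h3 := ab_sq hik
  have h4 := ab_sq hkm
  have h5 := ab_sq hjl
  have h6 := ab_lt hik
  have h7 := ab_lt hkm
  have h8 := ab_two j
  -- the left side is at most `(ab j)² / 4`
  have h9 : (t - ab i) * (ab j - t) ≤ ab j ^ 2 / 4 := by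
    nlinarith [sq_nonneg ((t - ab i) - (ab j - t)), sq_nonneg (ab j - t)]
  have h10 : 2 ≤ t - ab k := by nlinarith
  have h11 : ab j ^ 2 - ab j ≤ ab l - t := by linarith
  have h12 : 0 ≤ ab j ^ 2 - ab j := by nlinarith
  have h13 : 2 * (ab j ^ 2 - ab j) ≤ (t - ab k) * (ab l - t) :=
    mul_le_mul h10 h11 h12 (by linarith)
  nlinarith

/-- the position of a vertex -/
noncomputable def posOf (n : ℕ) (i : Fin n) : Plane := (ab i.val, 0)

/-- the arc of an edge -/
noncomputable def arcOf (n : ℕ) (P : ℕ → Bool) : Sym2 (Fin n) → Set Plane :=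
  Sym2.lift ⟨fun i j => pArc (P (i.val + j.val)) i.val j.val,
    fun i j => by
      change pArc (P (i.val + j.val)) i.val j.val = pArc (P (j.val + i.val)) j.val i.val
      rw [pArc_comm, add_comm]⟩

theorem arcOf_mk (n : ℕ) (P : ℕ → Bool) (i j : Fin n) :
    arcOf n P s(i, j) = pArc (P (i.val + j.val)) i.val j.val := rfl

theorem edge_rep {n : ℕ} {e : Sym2 (Fin n)} (he : e ∈ (⊤ : SimpleGraph (Fin n)).edgeSet) :
    ∃ i j : Fin n, i.val < j.val ∧ e = s(i, j) := by
  induction e using Sym2.ind with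
  | _ i j =>
    rw [SimpleGraph.mem_edgeSet, SimpleGraph.top_adj] at he
    rcases Nat.lt_trichotomy i.val j.val with h | h | h
    · exact ⟨i, j, h, rfl⟩
    · exact absurd (Fin.ext h) he
    · exact ⟨j, i, h, Sym2.eq_swap⟩

/-- a common interior point of two edges -/
theorem meet {n : ℕ} {P : ℕ → Bool} {i j k l : Fin n} (hij : i.val < j.val) (hkl : k.val < l.val)
    (hne : s(i, j) ≠ s(k, l)) {x : Plane} (hx : x ∉ range (posOf n))
    (h1 : x ∈ arcOf n P s(i, j)) (h2 : x ∈ arcOf n P s(k, l)) :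
    (ab i < x.1 ∧ x.1 < ab j ∧ x.2 = par (P (i + j)) i j x.1) ∧
    (ab k < x.1 ∧ x.1 < ab l ∧ x.2 = par (P (k + l)) k l x.1) ∧
    P (i + j) = P (k + l) ∧ (x.1 - ab i) * (ab j - x.1) = (x.1 - ab k) * (ab l - x.1) ∧
      ((i.val < k ∧ k.val < j ∧ j.val < l) ∨ (k.val < i ∧ i.val < l ∧ l.val < j)) := by
  rw [arcOf_mk] at h1 h2
  have hx' : ∀ w : Fin n, x ≠ (ab w, 0) := fun w hw => hx ⟨w, hw.symm⟩
  have h3 := mem_int hij h1 (hx' i) (hx' j)
  have h4 := mem_int hkl h2 (hx' k) (hx' l)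
  refine ⟨h3, h4, interleave ?_ h3 h4⟩
  rintro ⟨h5, h6⟩
  exact hne (by rw [Fin.ext h5, Fin.ext h6])

/-- the point in which the parabolas `ij` and `kl` meet -/
noncomputable def pt (P : ℕ → Bool) (q : ℕ × ℕ × ℕ × ℕ) : Plane :=
  ((ab q.1 * ab q.2.2.1 - ab q.2.1 * ab q.2.2.2) / (ab q.1 + ab q.2.2.1 - ab q.2.1 - ab q.2.2.2),
    par (P (q.1 + q.2.2.1)) q.1 q.2.2.1
      ((ab q.1 * ab q.2.2.1 - ab q.2.1 * ab q.2.2.2) /
        (ab q.1 + ab q.2.2.1 - ab q.2.1 - ab q.2.2.2)))

theorem slope_ne {i j k l : ℕ} (hik : i < k) (hjl : j < l) :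
    ab i + ab j - ab k - ab l ≠ 0 := by
  have h1 := ab_lt hik
  have h2 := ab_lt hjl
  intro h
  linarith

theorem eq_pt {P : ℕ → Bool} {i j k l : ℕ} {x : Plane} (hik : i < k) (hjl : j < l)
    (h1 : x.2 = par (P (i + j)) i j x.1)
    (h : (x.1 - ab i) * (ab j - x.1) = (x.1 - ab k) * (ab l - x.1)) :
    x = pt P (i, k, j, l) := by
  have h2 : x.1 = (ab i * ab j - ab k * ab l) / (ab i + ab j - ab k - ab l) := by
    rw [eq_div_iff (slope_ne hik hjl)]
    linarith
  apply Prod.ext
  · exact h2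
  · rw [h1]
    unfold pt
    simp only
    rw [← h2]

/-- the two-page drawing of `K_n` with the page function `P` of the sums -/
noncomputable def twoPage (n : ℕ) (P : ℕ → Bool) : Drawing (⊤ : SimpleGraph (Fin n)) where
  pos := posOf n
  pos_inj := by
    intro i j h
    exact Fin.ext (ab_inj (congrArg Prod.fst h))
  arc := arcOf n P
  isArc := by
    intro u v h
    rw [SimpleGraph.top_adj] at h
    exact isArc_pArc _ fun h' => h (Fin.ext h')
  avoid := by
    intro e he w hw
    obtain ⟨i, j, hij, rfl⟩ := edge_rep he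
    rw [arcOf_mk, mem_pArc hij] at hw
    have h1 : (0 : ℝ) = sg (P (i.val + j.val)) * ((ab w - ab i) * (ab j - ab w)) := hw.2
    rw [Sym2.mem_iff]
    rcases mul_eq_zero.1 h1.symm with h2 | h2
    · exact absurd h2 (sg_ne _)
    · rcases mul_eq_zero.1 h2 with h3 | h3
      · left
        exact Fin.ext (ab_inj (by linarith))
      · right
        exact Fin.ext (ab_inj (by linarith))
  finite := by
    intro e he f hf hne
    obtain ⟨i, j, hij, rfl⟩ := edge_rep he
    obtain ⟨k, l, hkl, rfl⟩ := edge_rep hf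
    apply Set.Subsingleton.finite
    rintro x ⟨⟨hx1, hx⟩, ⟨hx2, _⟩⟩ y ⟨⟨hy1, hy⟩, ⟨hy2, _⟩⟩
    obtain ⟨a1, a2, a3, a4, a5⟩ := meet hij hkl hne hx hx1 hx2
    obtain ⟨b1, b2, b3, b4, b5⟩ := meet hij hkl hne hy hy1 hy2
    rcases a5 with a5 | a5
    · rw [eq_pt (P := P) a5.1 a5.2.2 a1.2.2 a4, eq_pt (P := P) a5.1 a5.2.2 b1.2.2 b4]
    · rw [eq_pt (P := P) a5.1 a5.2.2 a2.2.2 a4.symm, eq_pt (P := P) a5.1 a5.2.2 b2.2.2 b4.symm]
  proper := by
    intro e he f hf hne x hx
    obtain ⟨i, j, hij, rfl⟩ := edge_rep he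
    obtain ⟨k, l, hkl, rfl⟩ := edge_rep hf
    obtain ⟨⟨hx1, hx⟩, ⟨hx2, _⟩⟩ := hx
    obtain ⟨a1, a2, a3, a4, a5⟩ := meet hij hkl hne hx hx1 hx2
    rw [arcOf_mk, arcOf_mk, ← a3]
    rw [← a3] at a2
    refine crossAt_par a1 a2 hij hkl ?_
    rcases a5 with a5 | a5
    · have h1 := slope_ne a5.1 a5.2.2
      intro h2
      exact h1 (by linarith)
    · have h1 := slope_ne a5.1 a5.2.2
      intro h2
      exact h1 (by linarith)
  two := by
    intro e he f hf g hg hef heg hfg x hx he' hf' hg'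
    obtain ⟨i, j, hij, rfl⟩ := edge_rep he
    obtain ⟨k, l, hkl, rfl⟩ := edge_rep hf
    obtain ⟨m, o, hmo, rfl⟩ := edge_rep hg
    obtain ⟨a1, a2, -, a4, a5⟩ := meet hij hkl hef hx he' hf'
    obtain ⟨-, b2, -, b4, b5⟩ := meet hij hmo heg hx he' hg'
    obtain ⟨-, -, -, c4, c5⟩ := meet hkl hmo hfg hx hf' hg'
    rcases a5 with a5 | a5 <;> rcases b5 with b5 | b5 <;> rcases c5 with c5 | c5
    · exact no_three a5.1 c5.1 a5.2.2 b2.1 a1.2.1 a4
    · exact no_three b5.1 c5.1 b5.2.2 a2.1 a1.2.1 b4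
    · omega
    · exact no_three b5.1 a5.1 b5.2.2 a2.1 b2.2.1 b4.symm
    · exact no_three a5.1 b5.1 a5.2.2 b2.1 a2.2.1 a4.symm
    · omega
    · exact no_three c5.1 b5.1 c5.2.2 a1.1 a2.2.1 c4
    · exact no_three c5.1 a5.1 c5.2.2 a1.1 b2.2.1 c4.symm

/-- the number of crossings -/
theorem twoPage_crossings (n c : ℕ) : (twoPage n (pg n c)).crossings ≤ (same n c).card := by
  classical
  have h1 : (twoPage n (pg n c)).crossingSet ⊆ pt (pg n c) '' (same n c : Set _) := by
    rintro x ⟨hx, e, he, f, hf, hne, hxe, hxf⟩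
    obtain ⟨i, j, hij, rfl⟩ := edge_rep he
    obtain ⟨k, l, hkl, rfl⟩ := edge_rep hf
    obtain ⟨a1, a2, a3, a4, a5⟩ := meet hij hkl hne hx hxe hxf
    rcases a5 with a5 | a5
    · refine ⟨(i, k, j, l), ?_, (eq_pt (P := pg n c) a5.1 a5.2.2 a1.2.2 a4).symm⟩
      simp only [same, quads, Finset.coe_filter, Finset.mem_filter, Finset.mem_product,
        Finset.mem_range, mem_ofPred_eq]
      exact ⟨⟨⟨i.2, k.2, j.2, l.2⟩, a5.1, a5.2.1, a5.2.2⟩, a3⟩
    · refine ⟨(k, i, l, j), ?_, (eq_pt (P := pg n c) a5.1 a5.2.2 a2.2.2 a4.symm).symm⟩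
      simp only [same, quads, Finset.coe_filter, Finset.mem_filter, Finset.mem_product,
        Finset.mem_range, mem_ofPred_eq]
      exact ⟨⟨⟨k.2, i.2, l.2, j.2⟩, a5.1, a5.2.1, a5.2.2⟩, a3.symm⟩
  unfold Drawing.crossings
  calc (twoPage n (pg n c)).crossingSet.ncard ≤ (pt (pg n c) '' (same n c : Set _)).ncard :=
        ncard_le_ncard h1 ((same n c).finite_toSet.image _)
    _ ≤ ((same n c : Set (ℕ × ℕ × ℕ × ℕ))).ncard := ncard_image_le (same n c).finite_toSet
    _ = (same n c).card := ncard_coe_finset _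

/-- **The upper bound**: some drawing of `K_n` has at most `Z(n)` crossings. -/
theorem exists_drawing_le (n : ℕ) :
    ∃ D : Drawing (⊤ : SimpleGraph (Fin n)), D.crossings ≤ Even.hill n := by
  obtain ⟨c, hc⟩ := exists_same_le n
  exact ⟨twoPage n (pg n c), (twoPage_crossings n c).trans hc⟩

end Vale.Agent.P040.H682.Two
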